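import Mathlib
import Vale.Agent.Lib.P047.Linear

namespace Vale.Agent.Results.P047.LinearUpperBound

open Finset Vale.Agent.Lib.P047

/-- First improvement of the trivial bound `M(d) ≤ d`:
every Boolean function of degree at most `d`, `d ≥ 2`, has
`∑_i \hat f({i}) ≤ (127/128) d`; more precisely, if `d ∈ {2r+1, 2r+2}`, `r ≥ 1`, and
`s = sin(π / (2 (2r+1)))`, then `∑_i \hat f({i}) ≤ (2r+1) - (1-s)^{2d} / s`. -/
theorem result :
    (∀ (n d : ℕ) (f : (Fin n → Bool) → Bool), 2 ≤ d → degree f ≤ d →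
        linSum f ≤ (1 - 1 / 128) * (d : ℝ)) ∧
    (∀ (n d r : ℕ) (f : (Fin n → Bool) → Bool), 1 ≤ r → d ≤ 2 * r + 2 → degree f ≤ d →
        linSum f ≤ (2 * (r : ℝ) + 1)
          - (1 - Real.sin (Real.pi / (2 * (2 * (r : ℝ) + 1)))) ^ (2 * d)
            / Real.sin (Real.pi / (2 * (2 * (r : ℝ) + 1)))) := by
  refine ⟨fun n d f h2 hd => linSum_le_uniform f d h2 hd, ?_⟩
  intro n d r f hr h2 hd
  rw [← nd_last]
  exact linSum_le_explicit f d r hr hd h2

end Vale.Agent.Results.P047.LinearUpperBound
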