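import Mathlib
import Vale.Agent.Lib.P047.Cube

namespace Vale.Agent.Results.P047.SubcubePartition

open Finset Vale.Agent.Lib.P047

theorem result (n m : ℕ) (f : (Fin n → Bool) → ℝ)
    (hf : ∀ x, f x = 1 ∨ f x = -1)
    (ρ : Fin m → Fin n → Option Bool)
    (hcover : ∀ x, ∃ j, InCube (ρ j) x)
    (hdisj : ∀ j k x, InCube (ρ j) x → InCube (ρ k) x → j = k)
    (hconst : ∀ j x y, InCube (ρ j) x → InCube (ρ j) y → f x = f y) :
    ∑ i, fourierOne f i ≤ Real.sqrt (∑ j, (width (ρ j) : ℝ) * (1 / 2) ^ width (ρ j)) := by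
  classical
  have hU : (univ : Finset (Fin n → Bool)) = univ.biUnion fun j => cube (ρ j) := by
    ext x
    simp only [mem_univ, mem_biUnion, mem_cube, true_and, true_iff]
    exact hcover x
  have hpd : ((univ : Finset (Fin m)) : Set (Fin m)).PairwiseDisjoint fun j => cube (ρ j) := by
    intro j _ k _ hjk
    rw [Function.onFun, Finset.disjoint_left]
    intro x hx hx'
    exact hjk (hdisj j k x ((mem_cube _ _).1 hx) ((mem_cube _ _).1 hx'))
  have hsum : ∀ g : (Fin n → Bool) → ℝ, ∑ x, g x = ∑ j, ∑ x ∈ cube (ρ j), g x := by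
    intro g
    rw [hU, Finset.sum_biUnion hpd]
  set p : Fin m → ℝ := fun j => (1 / 2 : ℝ) ^ width (ρ j) with hp
  set s : Fin m → ℝ := fun j => ssum (ρ j) with hs
  have hp0 : ∀ j, 0 < p j := fun j => by simp only [hp]; positivity
  -- a point of each cube and the value of f there
  set pt : Fin m → Fin n → Bool := fun j i => (ρ j i).getD true with hpt
  have hptmem : ∀ j, InCube (ρ j) (pt j) := by
    intro j i
    cases h : ρ j i with
    | none => left; rfl
    | some b => right; simp [hpt, h]
  set c : Fin m → ℝ := fun j => f (pt j) with hc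
  have hc2 : ∀ j, c j * c j = 1 := by
    intro j
    rcases hf (pt j) with h | h <;> simp [hc, h]
  have hnone : cube (n := n) (fun _ => none) = univ := by
    ext x; simp [mem_cube, InCube]
  have hw0 : width (n := n) (fun _ => none) = 0 := by simp [width]
  have hs0 : ssum (n := n) (fun _ => none) = 0 := by simp [ssum, sval]
  -- total mass
  have hmass : ∑ j, p j = 1 := by
    have h1 := unif_cube_one (n := n) (fun _ => none)
    rw [hnone, hw0, hsum] at h1
    rw [← Finset.sum_congr rfl fun j _ => unif_cube_one (ρ j)]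
    simpa using h1
  -- second moment
  have hsecond : ∑ j, p j * (s j * s j) = ∑ j, (width (ρ j) : ℝ) * p j := by
    have h1 := unif_cube_sq (n := n) (fun _ => none)
    rw [hnone, hw0, hs0, hsum] at h1
    have h2 : ∑ j, p j * (s j * s j + n - width (ρ j)) = n := by
      rw [← Finset.sum_congr rfl fun j _ => unif_cube_sq (ρ j)]
      simpa using h1
    have h3 : ∑ j, p j * (s j * s j + n - width (ρ j))
        = ∑ j, p j * (s j * s j) + n * ∑ j, p j - ∑ j, (width (ρ j) : ℝ) * p j := by
      rw [Finset.mul_sum, ← Finset.sum_add_distrib, ← Finset.sum_sub_distrib]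
      refine Finset.sum_congr rfl fun j _ => ?_
      ring
    rw [h3, hmass] at h2
    linarith
  -- the linear sum
  set W : ℝ := ∑ i, fourierOne f i with hWdef
  have hW : W = ∑ j, p j * (c j * s j) := by
    have h1 : ∀ i : Fin n, fourierOne f i = ∑ j, p j * (c j * sval (ρ j i)) := by
      intro i
      unfold fourierOne
      rw [Finset.sum_div, hsum]
      refine Finset.sum_congr rfl fun j _ => ?_
      have : ∑ x ∈ cube (ρ j), f x * sg (x i) / 2 ^ n
          = c j * ∑ x ∈ cube (ρ j), (1 / 2 : ℝ) ^ n * sg (x i) := by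
        rw [Finset.mul_sum]
        refine Finset.sum_congr rfl fun x hx => ?_
        rw [hconst j x (pt j) ((mem_cube _ _).1 hx) (hptmem j)]
        simp only [hc, one_div, inv_pow]
        ring
      rw [this, unif_cube_sg]
      ring
    rw [hWdef]
    simp only [h1]
    rw [Finset.sum_comm]
    refine Finset.sum_congr rfl fun j _ => ?_
    rw [← Finset.mul_sum, ← Finset.mul_sum]
    rfl
  clear_value W
  have hvar : 0 ≤ ∑ j, p j * ((c j * s j - W) * (c j * s j - W)) :=
    Finset.sum_nonneg fun j _ => mul_nonneg (hp0 j).le (mul_self_nonneg _)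
  have hexp : ∑ j, p j * ((c j * s j - W) * (c j * s j - W))
      = ∑ j, p j * (s j * s j) - 2 * W * ∑ j, p j * (c j * s j) + W * W * ∑ j, p j := by
    rw [Finset.mul_sum, Finset.mul_sum, ← Finset.sum_sub_distrib, ← Finset.sum_add_distrib]
    refine Finset.sum_congr rfl fun j _ => ?_
    have := hc2 j
    have e : (c j * s j - W) * (c j * s j - W)
        = (c j * c j) * (s j * s j) - 2 * W * (c j * s j) + W * W := by ring
    rw [e, this]; ring
  rw [hexp, ← hW, hmass, hsecond] at hvar
  apply Real.le_sqrt_of_sq_le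
  nlinarith

end Vale.Agent.Results.P047.SubcubePartition
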