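import Mathlib
import Vale.Agent.Lib.P047.Cube

namespace Vale.Agent.Results.P047.UnambiguousDNF

open Finset Vale.Agent.Lib.P047

lemma key (μ L : ℝ) (d : ℕ) (hμ : 0 < μ) (hd : 1 ≤ d)
    (H : ∀ θ : ℝ, μ * Real.exp (θ * (L / μ)) ≤ Real.exp (d * θ ^ 2 / 2)) :
    (L / μ) ^ 2 ≤ 2 * d * Real.log (1 / μ) := by
  have hd' : (0 : ℝ) < d := by exact_mod_cast hd
  set a := L / μ with ha
  have h1 := H (a / d)
  have h2 : Real.log (μ * Real.exp (a / d * a)) ≤ Real.log (Real.exp (d * (a / d) ^ 2 / 2)) :=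
    Real.log_le_log (by positivity) h1
  rw [Real.log_mul hμ.ne' (Real.exp_pos _).ne', Real.log_exp, Real.log_exp] at h2
  rw [one_div, Real.log_inv]
  have h3 : a / d * a = a ^ 2 / d := by ring
  have h4 : (d : ℝ) * (a / d) ^ 2 / 2 = a ^ 2 / d / 2 := by
    field_simp
  rw [h3, h4] at h2
  have h5 : a ^ 2 / d ≤ 2 * (-Real.log μ) := by linarith
  rw [div_le_iff₀ hd'] at h5
  linarith

lemma entropy_bound (v : ℝ) (hv : 0 < v) : v * Real.log (1 / v) ≤ Real.exp (-1) := by
  have h := Real.log_le_sub_one_of_pos (x := 1 / (Real.exp 1 * v)) (by positivity)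
  rw [one_div, Real.log_inv, Real.log_mul (Real.exp_pos 1).ne' hv.ne', Real.log_exp] at h
  rw [one_div, Real.log_inv, Real.exp_neg]
  have h2 : -Real.log v ≤ (Real.exp 1 * v)⁻¹ := by linarith
  calc v * -Real.log v ≤ v * (Real.exp 1 * v)⁻¹ := by
        exact mul_le_mul_of_nonneg_left h2 hv.le
    _ = (Real.exp 1)⁻¹ := by
        field_simp

theorem result (n d m : ℕ) (hd : 1 ≤ d) (f : (Fin n → Bool) → ℝ)
    (hf : ∀ x, f x = 1 ∨ f x = -1)
    (ρ : Fin m → Fin n → Option Bool)
    (hw : ∀ j, width (ρ j) ≤ d)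
    (hcover : ∀ x, f x = 1 ↔ ∃ j, InCube (ρ j) x)
    (hdisj : ∀ j k x, InCube (ρ j) x → InCube (ρ k) x → j = k) :
    (∑ i, fourierOne f i ≤
      2 * (((univ.filter fun x => f x = 1).card : ℝ) / 2 ^ n) *
        Real.sqrt (2 * d * Real.log (1 / (((univ.filter fun x => f x = 1).card : ℝ) / 2 ^ n)))) ∧
    ∑ i, fourierOne f i ≤ 2 * Real.exp (-1 / 2) * Real.sqrt d := by
  classical
  set A : Finset (Fin n → Bool) := univ.filter fun x => f x = 1 with hA
  have hAU : A = univ.biUnion fun j => cube (ρ j) := by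
    ext x
    simp only [hA, mem_filter, mem_univ, true_and, mem_biUnion, mem_cube]
    exact hcover x
  have hpd : ((univ : Finset (Fin m)) : Set (Fin m)).PairwiseDisjoint fun j => cube (ρ j) := by
    intro j _ k _ hjk
    rw [Function.onFun, Finset.disjoint_left]
    intro x hx hx'
    exact hjk (hdisj j k x ((mem_cube _ _).1 hx) ((mem_cube _ _).1 hx'))
  have hsumA : ∀ g : (Fin n → Bool) → ℝ, ∑ x ∈ A, g x = ∑ j, ∑ x ∈ cube (ρ j), g x := by
    intro g
    rw [hAU, Finset.sum_biUnion hpd]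
  set p : Fin m → ℝ := fun j => (1 / 2 : ℝ) ^ width (ρ j) with hp
  set s : Fin m → ℝ := fun j => ssum (ρ j) with hs
  have hp0 : ∀ j, 0 < p j := fun j => by simp only [hp]; positivity
  set μ : ℝ := (A.card : ℝ) / 2 ^ n with hμdef
  set L : ℝ := ∑ j, p j * s j with hL
  have hμ : μ = ∑ j, p j := by
    have h1 : ∑ _x ∈ A, (1 / 2 : ℝ) ^ n = ∑ j, p j := by
      rw [hsumA]
      exact Finset.sum_congr rfl fun j _ => unif_cube_one (ρ j)
    rw [← h1, Finset.sum_const, nsmul_eq_mul, hμdef]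
    simp [div_eq_mul_inv]
  -- W = 2 L
  have hW : ∑ i, fourierOne f i = 2 * L := by
    have hfx : ∀ x, f x = 2 * (if x ∈ A then (1 : ℝ) else 0) - 1 := by
      intro x
      by_cases hx : f x = 1
      · have : x ∈ A := by simp [hA, hx]
        simp [this, hx]; norm_num
      · have : x ∉ A := by simp [hA, hx]
        rcases hf x with h | h
        · exact absurd h hx
        · simp [this, h]
    have hz : ∀ i : Fin n, ∑ x : Fin n → Bool, (1 / 2 : ℝ) ^ n * sg (x i) = 0 := by
      intro i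
      have := unif_cube_sg (n := n) (fun _ => none) i
      have hc : cube (n := n) (fun _ => none) = univ := by
        ext x; simp [mem_cube, InCube]
      rw [hc] at this
      rw [this]; simp [sval]
    have h1 : ∀ i : Fin n, fourierOne f i = 2 * ∑ j, p j * sval (ρ j i) := by
      intro i
      unfold fourierOne
      have hpt : ∀ x : Fin n → Bool, f x * sg (x i) / 2 ^ n
          = 2 * (if x ∈ A then (1 / 2 : ℝ) ^ n * sg (x i) else 0) - (1 / 2 : ℝ) ^ n * sg (x i) := by
        intro x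
        rw [hfx x]
        by_cases hx : x ∈ A
        · simp [hx]; ring
        · simp [hx]; ring
      have : ∑ x : Fin n → Bool, f x * sg (x i) / 2 ^ n
          = 2 * ∑ x ∈ A, (1 / 2 : ℝ) ^ n * sg (x i) - ∑ x : Fin n → Bool, (1 / 2 : ℝ) ^ n * sg (x i) := by
        simp only [hpt]
        rw [Finset.sum_sub_distrib, ← Finset.mul_sum, Finset.sum_ite_mem, Finset.univ_inter]
      rw [Finset.sum_div, this, hz i, hsumA, sub_zero]
      congr 1
      exact Finset.sum_congr rfl fun j _ => unif_cube_sg (ρ j) i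
    simp only [h1]
    rw [← Finset.mul_sum, Finset.sum_comm, hL]
    congr 1
    refine Finset.sum_congr rfl fun j _ => ?_
    rw [← Finset.mul_sum]
    rfl
  -- the tilted inequality
  have htilt : ∀ θ : ℝ, ∑ j, p j * Real.exp (θ * s j) ≤ Real.exp (d * θ ^ 2 / 2) := by
    intro θ
    have hc := Real.cosh_pos θ
    have hc1 : 1 ≤ Real.cosh θ := Real.one_le_cosh θ
    have h1 : ∑ x ∈ A, ∏ i, tilt θ (x i) ≤ 1 := by
      rw [← tilt_total (n := n) θ]
      exact Finset.sum_le_sum_of_subset_of_nonneg (Finset.subset_univ _)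
        fun x _ _ => Finset.prod_nonneg fun i _ => tilt_nonneg θ _
    rw [hsumA] at h1
    have h2 : ∑ j, p j * Real.exp (θ * s j) * ((Real.cosh θ)⁻¹) ^ d
        ≤ ∑ j, ∑ x ∈ cube (ρ j), ∏ i, tilt θ (x i) := by
      refine Finset.sum_le_sum fun j _ => ?_
      rw [tilt_cube, mul_inv, mul_pow]
      have h3 : ((Real.cosh θ)⁻¹) ^ d ≤ ((Real.cosh θ)⁻¹) ^ width (ρ j) :=
        pow_le_pow_of_le_one (by positivity) (inv_le_one_of_one_le₀ hc1) (hw j)
      have h4 : p j = (2 : ℝ)⁻¹ ^ width (ρ j) := by simp [hp]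
      rw [h4]
      have h5 : 0 ≤ (2 : ℝ)⁻¹ ^ width (ρ j) * Real.exp (θ * s j) := by positivity
      calc (2 : ℝ)⁻¹ ^ width (ρ j) * Real.exp (θ * s j) * (Real.cosh θ)⁻¹ ^ d
          ≤ (2 : ℝ)⁻¹ ^ width (ρ j) * Real.exp (θ * s j) * (Real.cosh θ)⁻¹ ^ width (ρ j) :=
            mul_le_mul_of_nonneg_left h3 h5
        _ = Real.exp (θ * ssum (ρ j)) * ((2 : ℝ)⁻¹ ^ width (ρ j) * (Real.cosh θ)⁻¹ ^ width (ρ j)) := by
            simp only [hs]; ring
    have h6 : (∑ j, p j * Real.exp (θ * s j)) * ((Real.cosh θ)⁻¹) ^ d ≤ 1 := by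
      rw [Finset.sum_mul]; exact h2.trans h1
    rw [inv_pow, ← div_eq_mul_inv, div_le_one (by positivity)] at h6
    refine h6.trans ?_
    calc Real.cosh θ ^ d ≤ (Real.exp (θ ^ 2 / 2)) ^ d :=
          pow_le_pow_left₀ hc.le (Real.cosh_le_exp_half_sq θ) d
      _ = Real.exp (d * θ ^ 2 / 2) := by
          rw [← Real.exp_nat_mul]; congr 1; ring
  by_cases hm : μ = 0
  · -- no cube at all
    have hall : ∀ j, p j = 0 := by
      intro j
      have := (Finset.sum_eq_zero_iff_of_nonneg (fun j _ => (hp0 j).le)).1 (hμ ▸ hm) j (mem_univ j)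
      exact this
    have hL0 : L = 0 := by
      rw [hL]; exact Finset.sum_eq_zero fun j _ => by rw [hall j]; ring
    rw [hW, hL0, hm]
    constructor
    · simp
    · simp; positivity
  · have hμpos : 0 < μ := by
      have : 0 ≤ μ := by rw [hμ]; exact Finset.sum_nonneg fun j _ => (hp0 j).le
      exact lt_of_le_of_ne this (Ne.symm hm)
    have H : ∀ θ : ℝ, μ * Real.exp (θ * (L / μ)) ≤ Real.exp (d * θ ^ 2 / 2) := by
      intro θ
      refine le_trans ?_ (htilt θ)
      set y0 := θ * (L / μ) with hy0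
      have h1 : ∀ j, p j * (Real.exp y0 * (θ * s j - y0 + 1)) ≤ p j * Real.exp (θ * s j) := by
        intro j
        refine mul_le_mul_of_nonneg_left ?_ (hp0 j).le
        have := Real.add_one_le_exp (θ * s j - y0)
        calc Real.exp y0 * (θ * s j - y0 + 1) ≤ Real.exp y0 * Real.exp (θ * s j - y0) :=
              mul_le_mul_of_nonneg_left this (Real.exp_pos _).le
          _ = Real.exp (θ * s j) := by rw [← Real.exp_add]; congr 1; ring
      have h2 : ∑ j, p j * (Real.exp y0 * (θ * s j - y0 + 1)) = μ * Real.exp y0 := by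
        have : ∀ j, p j * (Real.exp y0 * (θ * s j - y0 + 1))
            = Real.exp y0 * θ * (p j * s j) + Real.exp y0 * (1 - y0) * p j := by
          intro j; ring
        simp only [this]
        rw [Finset.sum_add_distrib, ← Finset.mul_sum, ← Finset.mul_sum, ← hμ, ← hL, hy0]
        field_simp
        ring
      rw [← h2]
      exact Finset.sum_le_sum fun j _ => h1 j
    have hk := key μ L d hμpos hd H
    have hLμ : L / μ ≤ Real.sqrt (2 * d * Real.log (1 / μ)) := Real.le_sqrt_of_sq_le hk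
    have hfirst : 2 * L ≤ 2 * μ * Real.sqrt (2 * d * Real.log (1 / μ)) := by
      rw [div_le_iff₀ hμpos] at hLμ
      linarith
    rw [hW]
    refine ⟨hfirst, hfirst.trans ?_⟩
    -- uniform bound
    have hlog : 0 ≤ 2 * (d : ℝ) * Real.log (1 / μ) := le_trans (sq_nonneg _) hk
    have he := entropy_bound (μ ^ 2) (by positivity)
    have hl2 : Real.log (1 / μ ^ 2) = 2 * Real.log (1 / μ) := by
      rw [one_div, one_div, ← inv_pow, Real.log_pow]; norm_num
    rw [hl2] at he
    have h7 : μ * Real.sqrt (2 * d * Real.log (1 / μ)) ≤ Real.exp (-1 / 2) * Real.sqrt d := by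
      have e1 : μ * Real.sqrt (2 * d * Real.log (1 / μ))
          = Real.sqrt (μ ^ 2 * (2 * d * Real.log (1 / μ))) := by
        rw [Real.sqrt_mul (sq_nonneg μ) (2 * d * Real.log (1 / μ)), Real.sqrt_sq hμpos.le]
      have e2 : Real.exp (-1 / 2) * Real.sqrt d = Real.sqrt (Real.exp (-1) * d) := by
        rw [Real.sqrt_mul (Real.exp_pos _).le]
        congr 1
        have h8 : Real.exp (-1) = Real.exp (-1 / 2) ^ 2 := by
          rw [← Real.exp_nat_mul]; congr 1; norm_num
        rw [h8, Real.sqrt_sq (Real.exp_pos _).le]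
      rw [e1, e2]
      apply Real.sqrt_le_sqrt
      have hd0 : (0 : ℝ) ≤ d := by positivity
      nlinarith [mul_le_mul_of_nonneg_right he hd0]
    linarith

end Vale.Agent.Results.P047.UnambiguousDNF
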