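import Mathlib
import Vale.Agent.Lib.P047.TensorThm
import Vale.Agent.Results.P047.LinearUpperBound
import Vale.Agent.Results.P047.SubcubePartition
import Vale.Agent.Results.P047.UnambiguousDNF

namespace Vale.Agent.Results.P047.Combined

open Finset Vale.Agent.Lib.P047

lemma linSum_eq {n : ℕ} (f : (Fin n → Bool) → Bool) :
    linSum f = ∑ i, fourierOne (toReal f) i := by
  unfold linSum
  refine Finset.sum_congr rfl fun i _ => ?_
  simp [coef, chi, fourierOne]

lemma toReal_pm {n : ℕ} (f : (Fin n → Bool) → Bool) (x : Fin n → Bool) :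
    toReal f x = 1 ∨ toReal f x = -1 := by
  unfold toReal
  cases f x <;> simp [sg]

lemma toReal_eq_one {n : ℕ} (f : (Fin n → Bool) → Bool) (x : Fin n → Bool) :
    toReal f x = 1 ↔ f x = true := by
  unfold toReal
  cases f x
  · simp [sg]; norm_num
  · simp [sg]

/-- Five results on the sum `linSum f` of the level-one Fourier coefficients of a Boolean function
`f` on the cube: (1) `linSum f ≤ (127/128) d` if `deg f ≤ d`, `d ≥ 2`; (2) multiplicativity under
composition with a balanced inner function; (3) the weak form of the conjecture improves itself to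
constant one; (4) the sharp square-root bound in terms of the average codimension of a subcube
decomposition on whose pieces `f` is constant; (5) a square-root bound when the set where `f` is
true is a disjoint union of subcubes of codimension at most `d`. -/
theorem result :
    (∀ (n d : ℕ) (f : (Fin n → Bool) → Bool), 2 ≤ d → degree f ≤ d →
        linSum f ≤ (1 - 1 / 128) * (d : ℝ)) ∧
    (∀ (n m : ℕ) (f : (Fin n → Bool) → Bool) (g : (Fin m → Bool) → Bool),
        coef (toReal g) ∅ = 0 →
        ∃ h : (Fin (n * m) → Bool) → Bool,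
          linSum h = linSum f * linSum g ∧ degree h ≤ degree f * degree g ∧
          coef (toReal h) ∅ = coef (toReal f) ∅) ∧
    ((∃ C : ℝ, ∀ (n : ℕ) (f : (Fin n → Bool) → Bool), linSum f ≤ C * Real.sqrt (degree f)) →
      (∀ (n : ℕ) (f : (Fin n → Bool) → Bool), coef (toReal f) ∅ = 0 →
          linSum f ≤ Real.sqrt (degree f)) ∧
      (∀ (n : ℕ) (f : (Fin n → Bool) → Bool),
          linSum f + |coef (toReal f) ∅| ≤ Real.sqrt ((degree f : ℝ) + 1))) ∧
    (∀ (n m : ℕ) (f : (Fin n → Bool) → Bool) (ρ : Fin m → Fin n → Option Bool),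
        (∀ x, ∃ j, InCube (ρ j) x) →
        (∀ j k x, InCube (ρ j) x → InCube (ρ k) x → j = k) →
        (∀ j x y, InCube (ρ j) x → InCube (ρ j) y → f x = f y) →
        linSum f ≤ Real.sqrt (∑ j, (width (ρ j) : ℝ) * (1 / 2) ^ width (ρ j))) ∧
    (∀ (n d m : ℕ) (f : (Fin n → Bool) → Bool) (ρ : Fin m → Fin n → Option Bool),
        1 ≤ d → (∀ j, width (ρ j) ≤ d) →
        (∀ x, f x = true ↔ ∃ j, InCube (ρ j) x) →
        (∀ j k x, InCube (ρ j) x → InCube (ρ k) x → j = k) →
        linSum f ≤ 2 * (((univ.filter fun x => f x = true).card : ℝ) / 2 ^ n) *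
            Real.sqrt (2 * d *
              Real.log (1 / (((univ.filter fun x => f x = true).card : ℝ) / 2 ^ n))) ∧
        linSum f ≤ 2 * Real.exp (-1 / 2) * Real.sqrt d) := by
  refine ⟨LinearUpperBound.result.1, TensorThm.tensor_result.1, TensorThm.tensor_result.2, ?_, ?_⟩
  · intro n m f ρ hcover hdisj hconst
    rw [linSum_eq]
    exact SubcubePartition.result n m (toReal f) (toReal_pm f) ρ hcover hdisj
      (fun j x y hx hy => by unfold toReal; rw [hconst j x y hx hy])
  · intro n d m f ρ hd hw hcover hdisj
    have h := UnambiguousDNF.result n d m hd (toReal f) (toReal_pm f) ρ hw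
      (fun x => (toReal_eq_one f x).trans (hcover x)) hdisj
    have hfil : (univ.filter fun x => toReal f x = 1) = univ.filter fun x => f x = true :=
      Finset.filter_congr fun x _ => toReal_eq_one f x
    rw [hfil, ← linSum_eq] at h
    exact h

end Vale.Agent.Results.P047.Combined
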